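import Vale.Agent.P052.Pack

/-!
Kernel-friendly checks on a list of coded vectors: the Gram matrix, and the absence of large
cliques in the graph of close pairs.  An element of the list is a triple
(index, code of the vector, row of bits of the close pairs).
-/

namespace Vale.Agent.P052

/-- Evaluate the argument before substituting it. -/
noncomputable def force (n : ℕ) (f : ℕ → Bool) : Bool :=
  Nat.rec (motive := fun _ => Bool) (f 0) (fun m _ => f (Nat.succ m)) n

theorem force_eq (n : ℕ) (f : ℕ → Bool) : force n f = f n := by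
  cases n <;> rfl

/-- Conjunction of `f a` over the list. -/
noncomputable def allL {α : Type} (l : List α) (f : α → Bool) : Bool :=
  List.rec (motive := fun _ => Bool) true (fun a _ ih => f a && ih) l

theorem allL_iff {α : Type} (l : List α) (f : α → Bool) :
    allL l f = true ↔ ∀ a ∈ l, f a = true := by
  induction l with
  | nil => simp [allL]
  | cons a l ih =>
    have : allL (a :: l) f = (f a && allL l f) := rfl
    rw [this, Bool.and_eq_true, ih]
    simp

/-- Close pairs, read off the row of the first element. -/
noncomputable def adj (a b : ℕ × ℕ × ℕ) : Bool :=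
  Nat.beq (Nat.land (Nat.shiftRight a.2.2 b.1) 1) 1

/-- The expected inner products, shifted by 4. -/
noncomputable def expected (d : ℕ → ℕ) (a b : ℕ × ℕ × ℕ) : ℕ :=
  bif Nat.beq a.1 b.1 then Nat.add (d a.1) 4 else bif adj a b then 16 else 0

/-- One row of the Gram matrix check. -/
noncomputable def checkRow (n : ℕ) (l : List (ℕ × ℕ × ℕ)) (d : ℕ → ℕ) (a : ℕ × ℕ × ℕ) : Bool :=
  force (Nat.mul 65536 (packA n a.2.1)) fun xa =>
  force (sumN n a.2.1) fun si =>
  allL l fun b =>
    Nat.beq
      (Nat.add (Nat.mod (Nat.div (Nat.mul xa (packB n b.2.1)) (Nat.pow 65536 n)) 65536)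
        (Nat.add (Nat.mul 16 n) 4))
      (Nat.add (Nat.mul 4 (Nat.add si (sumN n b.2.1))) (expected d a b))

/-- The whole Gram matrix check. -/
noncomputable def checkGram (n : ℕ) (l : List (ℕ × ℕ × ℕ)) (d : ℕ → ℕ) : Bool :=
  allL l fun a => checkRow n l d a

theorem checkGram_spec {n : ℕ} {l : List (ℕ × ℕ × ℕ)} {d : ℕ → ℕ} (hn : n < 256)
    (h : checkGram n l d = true) {a b : ℕ × ℕ × ℕ} (ha : a ∈ l) (hb : b ∈ l) :
    inner ℝ (vec n a.2.1) (vec n b.2.1) =
      if a.1 = b.1 then (d a.1 : ℝ) else if adj a b = true then 12 else -4 := by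
  have h1 := (allL_iff _ _).1 h a ha
  unfold checkRow at h1
  rw [force_eq, force_eq] at h1
  have h2 := (allL_iff _ _).1 h1 b hb
  have h3 := Nat.eq_of_beq_eq_true h2
  have h4 : (65536 * packA n a.2.1 * packB n b.2.1) / 65536 ^ n % 65536 +
      (16 * n + 4) = 4 * (sumN n a.2.1 + sumN n b.2.1) + expected d a b := h3
  rw [dotN_eq _ _ _ hn] at h4
  have h5 : ((dotN n a.2.1 b.2.1 : ℕ) : ℝ) + (16 * n + 4) =
      4 * ((sumN n a.2.1 : ℝ) + sumN n b.2.1) + (expected d a b : ℝ) := by exact_mod_cast h4
  rw [inner_vec]
  have h6 : (expected d a b : ℝ) =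
      (if a.1 = b.1 then (d a.1 : ℝ) else if adj a b = true then 12 else -4) + 4 := by
    unfold expected
    by_cases hij : a.1 = b.1
    · have : Nat.beq a.1 b.1 = true := by rw [hij]; exact Nat.beq_refl _
      rw [this, if_pos hij]
      simp
    · have hb : Nat.beq a.1 b.1 = false := by
        cases hb : Nat.beq a.1 b.1 with
        | false => rfl
        | true => exact absurd (Nat.eq_of_beq_eq_true hb) hij
      rw [hb, if_neg hij, cond_false]
      cases adj a b with
      | false => simp
      | true => norm_num
  rw [h6] at h5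
  linarith

/-- The elements of the list that are close to `a`. -/
noncomputable def filt (a : ℕ × ℕ × ℕ) (l : List (ℕ × ℕ × ℕ)) : List (ℕ × ℕ × ℕ) :=
  List.rec (motive := fun _ => List (ℕ × ℕ × ℕ)) []
    (fun b _ ihl => bif adj a b then b :: ihl else ihl) l

theorem mem_filt {a b : ℕ × ℕ × ℕ} {l : List (ℕ × ℕ × ℕ)} (hb : b ∈ l) (h : adj a b = true) :
    b ∈ filt a l := by
  induction l with
  | nil => simp at hb
  | cons c l ih =>
    have e : filt a (c :: l) = bif adj a c then c :: filt a l else filt a l := rfl
    rw [e]
    rcases List.mem_cons.1 hb with h1 | h1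
    · subst h1
      rw [h]
      simp
    · cases adj a c with
      | false => exact ih h1
      | true => exact List.mem_cons_of_mem _ (ih h1)

/-- Search for `k` pairwise close elements of the list. -/
noncomputable def hasK (k : ℕ) : List (ℕ × ℕ × ℕ) → Bool :=
  Nat.rec (motive := fun _ => List (ℕ × ℕ × ℕ) → Bool) (fun _ => true)
    (fun _ ih => fun l => List.rec (motive := fun _ => Bool) false
      (fun a l' ihl => ih (filt a l') || ihl) l) k

theorem hasK_succ_nil (k : ℕ) : hasK (k + 1) [] = false := rfl
theorem hasK_succ_cons (k : ℕ) (a : ℕ × ℕ × ℕ) (l : List (ℕ × ℕ × ℕ)) :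
    hasK (k + 1) (a :: l) = (hasK k (filt a l) || hasK (k + 1) l) := rfl

theorem hasK_of (k : ℕ) : ∀ (l : List (ℕ × ℕ × ℕ)) (S : Finset (ℕ × ℕ × ℕ)),
    (∀ a ∈ S, a ∈ l) → (∀ a ∈ S, ∀ b ∈ S, a ≠ b → adj a b = true) → S.card = k →
    hasK k l = true := by
  induction k with
  | zero => intro l S _ _ _; rfl
  | succ k ih =>
    intro l
    induction l with
    | nil =>
      intro S h1 _ h3
      have : S.Nonempty := by rw [← Finset.card_pos]; omega
      obtain ⟨a, ha⟩ := this
      exact absurd (h1 a ha) (by simp)
    | cons a l ihl =>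
      intro S h1 h2 h3
      rw [hasK_succ_cons]
      by_cases haS : a ∈ S
      · have : hasK k (filt a l) = true := by
          apply ih _ (S.erase a)
          · intro b hb
            have hb1 := Finset.ne_of_mem_erase hb
            have hb2 := Finset.mem_of_mem_erase hb
            apply mem_filt _ (h2 a haS b hb2 hb1.symm)
            rcases List.mem_cons.1 (h1 b hb2) with h | h
            · exact absurd h hb1
            · exact h
          · intro b hb c hc hbc
            exact h2 b (Finset.mem_of_mem_erase hb) c (Finset.mem_of_mem_erase hc) hbc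
          · rw [Finset.card_erase_of_mem haS, h3]
            rfl
        rw [this]
        rfl
      · have : hasK (k + 1) l = true := by
          apply ihl S _ h2 h3
          intro b hb
          rcases List.mem_cons.1 (h1 b hb) with h | h
          · exact absurd (h ▸ hb) haS
          · exact h
        rw [this]
        simp

end Vale.Agent.P052
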