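import Vale.Agent.P052.Data

namespace Vale.Agent.P052

set_option maxRecDepth 100000 in
theorem clique_ok : hasK 6 pts = false := by decide +kernel

end Vale.Agent.P052
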