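import Vale.Agent.P052.VerifyGram
import Vale.Agent.P052.VerifyClique

/-!
The 321-point set in dimension 63 and its parts of small diameter.
-/

namespace Vale.Agent.P052

/-- The scale of the last point: the positive root of `13 t ^ 2 + 2 t = 17`. -/
noncomputable def tt : ℝ := (Real.sqrt 222 - 1) / 13

theorem tt_eq : 13 * tt ^ 2 + 2 * tt = 17 := by
  have h : Real.sqrt 222 ^ 2 = 222 := Real.sq_sqrt (by norm_num)
  unfold tt
  have : 13 * ((Real.sqrt 222 - 1) / 13) ^ 2 + 2 * ((Real.sqrt 222 - 1) / 13) =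
      (Real.sqrt 222 ^ 2 - 1) / 13 := by ring
  rw [this, h]
  norm_num

theorem tt_pos : 0 < tt := by
  unfold tt
  have : 1 < Real.sqrt 222 := by
    rw [Real.lt_sqrt (by norm_num)]
    norm_num
  linarith [this]

/-- The points. -/
noncomputable def pt (a : ℕ × ℕ × ℕ) : EuclideanSpace ℝ (Fin 63) :=
  (if a.1 = 320 then tt else 1) • vec 63 a.2.1

theorem idx_inj {a b : ℕ × ℕ × ℕ} (ha : a ∈ pts) (hb : b ∈ pts) (h : a.1 = b.1) : a = b := by
  have hnd : (pts.map Prod.fst).Nodup := by
    rw [idx_ok]
    exact List.nodup_range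
  exact List.inj_on_of_nodup_map hnd ha hb h

theorem idx_le {a : ℕ × ℕ × ℕ} (ha : a ∈ pts) : a.1 < 321 := by
  have : a.1 ∈ pts.map Prod.fst := List.mem_map_of_mem ha
  rw [idx_ok] at this
  exact List.mem_range.1 this

theorem dist_sq {a b : ℕ × ℕ × ℕ} (ha : a ∈ pts) (hb : b ∈ pts) (hab : a ≠ b) :
    dist (pt a) (pt b) ^ 2 ≤ 128 ∧ (adj a b = false → dist (pt a) (pt b) ^ 2 = 128) := by
  have hidx : a.1 ≠ b.1 := fun h => hab (idx_inj ha hb h)
  have g1 := checkGram_spec (by norm_num) gram_ok ha hb
  have g2 := checkGram_spec (by norm_num) gram_ok ha ha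
  have g3 := checkGram_spec (by norm_num) gram_ok hb hb
  rw [if_pos rfl] at g2 g3
  rw [if_neg hidx] at g1
  have hd : dist (pt a) (pt b) ^ 2 =
      (if a.1 = 320 then tt else 1) ^ 2 * (nrm a.1 : ℝ)
      + (if b.1 = 320 then tt else 1) ^ 2 * (nrm b.1 : ℝ)
      - 2 * ((if a.1 = 320 then tt else 1) * (if b.1 = 320 then tt else 1) *
        (if adj a b = true then 12 else -4)) := by
    rw [dist_eq_norm, @norm_sub_sq_real, ← real_inner_self_eq_norm_sq,
      ← real_inner_self_eq_norm_sq]
    unfold pt
    rw [real_inner_smul_left, real_inner_smul_right, real_inner_smul_left, real_inner_smul_right,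
      real_inner_smul_left, real_inner_smul_right, g1, g2, g3]
    ring
  have n1 : ∀ i : ℕ, i ≠ 320 → nrm i = 60 := by
    intro i hi
    unfold nrm
    have hb : Nat.beq i 320 = false := by
      cases hb : Nat.beq i 320 with
      | false => rfl
      | true => exact absurd (Nat.eq_of_beq_eq_true hb) hi
    rw [hb]
    rfl
  have n2 : nrm 320 = 52 := rfl
  have ht := tt_eq
  have htp := tt_pos
  rw [hd]
  by_cases h1 : a.1 = 320
  · have h2 : b.1 ≠ 320 := fun h => hidx (h1.trans h.symm)
    rw [if_pos h1, if_neg h2, h1, n2, n1 _ h2]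
    push_cast
    cases adj a b with
    | false =>
      simp only [Bool.false_eq_true, if_false, forall_const]
      constructor <;> nlinarith
    | true =>
      simp only [if_true, Bool.true_eq_false, false_implies, and_true]
      nlinarith
  · by_cases h2 : b.1 = 320
    · rw [if_pos h2, if_neg h1, h2, n2, n1 _ h1]
      push_cast
      cases adj a b with
      | false =>
        simp only [Bool.false_eq_true, if_false, forall_const]
        constructor <;> nlinarith
      | true =>
        simp only [if_true, Bool.true_eq_false, false_implies, and_true]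
        nlinarith
    · rw [if_neg h1, if_neg h2, n1 _ h1, n1 _ h2]
      push_cast
      cases adj a b with
      | false =>
        simp only [Bool.false_eq_true, if_false, forall_const]
        constructor <;> norm_num
      | true =>
        simp only [if_true, Bool.true_eq_false, false_implies, and_true]
        norm_num

/-- The set of indices as a finset. -/
noncomputable def ptsF : Finset (ℕ × ℕ × ℕ) := pts.toFinset

theorem mem_ptsF {a : ℕ × ℕ × ℕ} : a ∈ ptsF ↔ a ∈ pts := List.mem_toFinset

theorem card_ptsF : ptsF.card = 321 := by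
  unfold ptsF
  have hnd : (pts.map Prod.fst).Nodup := by
    rw [idx_ok]
    exact List.nodup_range
  rw [List.toFinset_card_of_nodup (List.Nodup.of_map _ hnd)]
  have : (pts.map Prod.fst).length = 321 := by
    rw [idx_ok, List.length_range]
  rwa [List.length_map] at this

/-- Among any six of the points two are at the maximal distance. -/
theorem six {S : Finset (ℕ × ℕ × ℕ)} (hS : S ⊆ ptsF) (hc : S.card = 6) :
    ∃ a ∈ S, ∃ b ∈ S, a ≠ b ∧ dist (pt a) (pt b) ^ 2 = 128 := by
  by_contra hcon
  push Not at hcon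
  have := hasK_of 6 pts S (fun a ha => mem_ptsF.1 (hS ha)) (by
    intro a ha b hb hab
    by_contra hadj
    exact hcon a ha b hb hab
      ((dist_sq (mem_ptsF.1 (hS ha)) (mem_ptsF.1 (hS hb)) hab).2
        (Bool.eq_false_of_not_eq_true hadj))) hc
  rw [clique_ok] at this
  exact Bool.false_ne_true this

/-- The set. -/
noncomputable def theSet : Set (EuclideanSpace ℝ (Fin 63)) := pt '' (ptsF : Set (ℕ × ℕ × ℕ))

theorem theSet_finite : theSet.Finite := (Finset.finite_toSet _).image _

theorem theSet_bounded : Bornology.IsBounded theSet := theSet_finite.isBounded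

theorem diam_theSet : Metric.diam theSet = Real.sqrt 128 := by
  apply le_antisymm
  · apply Metric.diam_le_of_forall_dist_le (Real.sqrt_nonneg _)
    rintro _ ⟨a, ha, rfl⟩ _ ⟨b, hb, rfl⟩
    by_cases hab : a = b
    · rw [hab, dist_self]; exact Real.sqrt_nonneg _
    · apply Real.le_sqrt_of_sq_le
      exact (dist_sq (mem_ptsF.1 ha) (mem_ptsF.1 hb) hab).1
  · obtain ⟨S, hS1, hS2⟩ := Finset.exists_subset_card_eq
      (show 6 ≤ ptsF.card by rw [card_ptsF]; norm_num)
    obtain ⟨a, ha, b, hb, _, h⟩ := six hS1 hS2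
    have h1 : dist (pt a) (pt b) = Real.sqrt 128 := by
      rw [← h, Real.sqrt_sq dist_nonneg]
    rw [← h1]
    exact Metric.dist_le_diam_of_mem theSet_bounded ⟨a, hS1 ha, rfl⟩ ⟨b, hS1 hb, rfl⟩

theorem theSet_main (P : Fin 64 → Set (EuclideanSpace ℝ (Fin 63)))
    (hP : theSet = ⋃ i, P i) : ∃ i, Metric.diam theSet ≤ Metric.diam (P i) := by
  classical
  have hex : ∀ a ∈ ptsF, ∃ i, pt a ∈ P i := by
    intro a ha
    have : pt a ∈ theSet := ⟨a, ha, rfl⟩
    rw [hP] at this
    exact Set.mem_iUnion.1 this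
  choose! φ hφ using hex
  obtain ⟨i, _, hi⟩ := Finset.exists_lt_card_fiber_of_mul_lt_card_of_maps_to
    (s := ptsF) (t := (Finset.univ : Finset (Fin 64))) (f := φ) (n := 5)
    (fun a _ => Finset.mem_univ _) (by rw [card_ptsF]; simp)
  obtain ⟨S, hS1, hS2⟩ := Finset.exists_subset_card_eq (Nat.succ_le_of_lt hi)
  have hS3 : S ⊆ ptsF := fun a ha => (Finset.mem_filter.1 (hS1 ha)).1
  obtain ⟨a, ha, b, hb, _, h⟩ := six hS3 hS2
  have h1 : dist (pt a) (pt b) = Real.sqrt 128 := by
    rw [← h, Real.sqrt_sq dist_nonneg]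
  refine ⟨i, ?_⟩
  rw [diam_theSet, ← h1]
  have hsub : P i ⊆ theSet := by
    rw [hP]; exact Set.subset_iUnion P i
  have hmem : ∀ c ∈ S, pt c ∈ P i := by
    intro c hc
    have h2 := hφ c (hS3 hc)
    rw [(Finset.mem_filter.1 (hS1 hc)).2] at h2
    exact h2
  exact Metric.dist_le_diam_of_mem (theSet_bounded.subset hsub) (hmem a ha) (hmem b hb)

end Vale.Agent.P052
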