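import Mathlib

/-!
Vectors with small integer coordinates, packed into natural numbers, and a fast exact
computation of their inner products by one multiplication of natural numbers.
-/

namespace Vale.Agent.P052

/-- Sum of products of base-16 digits. -/
noncomputable def dotN (n : ℕ) : ℕ → ℕ → ℕ :=
  Nat.rec (fun _ _ => 0)
    (fun _ ih a b => Nat.add (Nat.mul (Nat.mod a 16) (Nat.mod b 16)) (ih (Nat.div a 16) (Nat.div b 16))) n

/-- Sum of base-16 digits. -/
noncomputable def sumN (n : ℕ) : ℕ → ℕ :=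
  Nat.rec (fun _ => 0) (fun _ ih a => Nat.add (Nat.mod a 16) (ih (Nat.div a 16))) n

/-- Respread the base-16 digits to base 65536. -/
noncomputable def packA (n : ℕ) : ℕ → ℕ :=
  Nat.rec (fun _ => 0) (fun _ ih a => Nat.add (Nat.mod a 16) (Nat.mul 65536 (ih (Nat.div a 16)))) n

/-- Respread the base-16 digits to base 65536 in reversed order. -/
noncomputable def packB (n : ℕ) : ℕ → ℕ :=
  Nat.rec (fun _ => 0)
    (fun m ih a => Nat.add (Nat.mul (Nat.mod a 16) (Nat.pow 65536 m)) (ih (Nat.div a 16))) n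

theorem dotN_zero (a b : ℕ) : dotN 0 a b = 0 := rfl
theorem dotN_succ (n a b : ℕ) :
    dotN (n + 1) a b = (a % 16) * (b % 16) + dotN n (a / 16) (b / 16) := rfl
theorem sumN_zero (a : ℕ) : sumN 0 a = 0 := rfl
theorem sumN_succ (n a : ℕ) : sumN (n + 1) a = (a % 16) + sumN n (a / 16) := rfl
theorem packA_zero (a : ℕ) : packA 0 a = 0 := rfl
theorem packA_succ (n a : ℕ) : packA (n + 1) a = a % 16 + 65536 * packA n (a / 16) := rfl
theorem packB_zero (a : ℕ) : packB 0 a = 0 := rfl
theorem packB_succ (n a : ℕ) :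
    packB (n + 1) a = (a % 16) * 65536 ^ n + packB n (a / 16) := rfl

theorem packB_le (n a : ℕ) : 65536 * packB n a ≤ 16 * 65536 ^ n := by
  induction n generalizing a with
  | zero => simp [packB_zero]
  | succ n ih =>
    rw [packB_succ]
    have h1 : a % 16 ≤ 15 := by omega
    have h2 := ih (a / 16)
    have h3 : (a % 16) * 65536 ^ n ≤ 15 * 65536 ^ n := Nat.mul_le_mul_right _ h1
    have h4 : (65536 : ℕ) ^ (n + 1) = 65536 * 65536 ^ n := by ring
    rw [h4]
    generalize 65536 ^ n = Y at *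
    generalize packB n (a / 16) = Z at *
    generalize (a % 16) * Y = W at *
    nlinarith

theorem pack_mul (n a b : ℕ) : ∃ L H : ℕ,
    65536 * (packA n a * packB n b) = L + dotN n a b * 65536 ^ n + H * 65536 ^ (n + 1) ∧
      65536 * L ≤ 240 * n * 65536 ^ n := by
  induction n generalizing a b with
  | zero => exact ⟨0, 0, by simp [packA_zero, dotN_zero], by simp⟩
  | succ n ih =>
    obtain ⟨L, H, h1, h2⟩ := ih (a / 16) (b / 16)
    refine ⟨65536 * ((a % 16) * packB n (b / 16)) + 65536 * L,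
      packA n (a / 16) * (b % 16) + H, ?_, ?_⟩
    · rw [packA_succ, packB_succ, dotN_succ]
      have e : 65536 * ((a % 16 + 65536 * packA n (a / 16)) *
          ((b % 16) * 65536 ^ n + packB n (b / 16))) =
          65536 * ((a % 16) * packB n (b / 16)) +
          (a % 16) * (b % 16) * 65536 ^ (n + 1) +
          (packA n (a / 16) * (b % 16)) * 65536 ^ (n + 2) +
          65536 * (65536 * (packA n (a / 16) * packB n (b / 16))) := by ring
      rw [e, h1]
      ring
    · have h3 := packB_le n (b / 16)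
      have h4 : a % 16 ≤ 15 := by omega
      have h5 : (65536 : ℕ) ^ (n + 1) = 65536 * 65536 ^ n := by ring
      rw [h5]
      have h6 : (a % 16) * (65536 * packB n (b / 16)) ≤ 15 * (16 * 65536 ^ n) :=
        Nat.mul_le_mul h4 h3
      have h7 : 65536 * (65536 * ((a % 16) * packB n (b / 16)) + 65536 * L) =
          65536 * ((a % 16) * (65536 * packB n (b / 16))) + 65536 * (65536 * L) := by ring
      rw [h7]
      have h8 : 65536 * ((a % 16) * (65536 * packB n (b / 16))) ≤
          65536 * (15 * (16 * 65536 ^ n)) := Nat.mul_le_mul_left _ h6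
      have h9 : 65536 * (65536 * L) ≤ 65536 * (240 * n * 65536 ^ n) :=
        Nat.mul_le_mul_left _ h2
      calc _ ≤ 65536 * (15 * (16 * 65536 ^ n)) + 65536 * (240 * n * 65536 ^ n) :=
            Nat.add_le_add h8 h9
        _ = 240 * (n + 1) * (65536 * 65536 ^ n) := by ring

theorem dotN_le (n a b : ℕ) : dotN n a b ≤ 225 * n := by
  induction n generalizing a b with
  | zero => simp [dotN_zero]
  | succ n ih =>
    rw [dotN_succ]
    have h1 : a % 16 ≤ 15 := by omega
    have h2 : b % 16 ≤ 15 := by omega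
    have h3 : (a % 16) * (b % 16) ≤ 15 * 15 := Nat.mul_le_mul h1 h2
    have := ih (a / 16) (b / 16)
    omega

/-- The middle digit of the product of the two packed numbers is the inner product of the
digit vectors. -/
theorem dotN_eq (n a b : ℕ) (hn : n < 256) :
    (65536 * packA n a * packB n b) / 65536 ^ n % 65536 = dotN n a b := by
  obtain ⟨L, H, h1, h2⟩ := pack_mul n a b
  have hX : 0 < (65536 : ℕ) ^ n := by positivity
  have hL : L < 65536 ^ n := by
    have : 65536 * L < 65536 * 65536 ^ n := by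
      refine lt_of_le_of_lt h2 ?_
      apply Nat.mul_lt_mul_of_pos_right _ hX
      omega
    exact Nat.lt_of_mul_lt_mul_left this
  have hd : dotN n a b < 65536 := by
    have := dotN_le n a b
    omega
  rw [Nat.mul_assoc, h1]
  have e : L + dotN n a b * 65536 ^ n + H * 65536 ^ (n + 1) =
      L + (dotN n a b + H * 65536) * 65536 ^ n := by ring
  rw [e, Nat.add_mul_div_right _ _ hX, Nat.div_eq_of_lt hL, Nat.zero_add,
    Nat.add_mul_mod_self_right, Nat.mod_eq_of_lt hd]

/-- The real vector of dimension `n` coded by `c`: its coordinates are the base-16 digits of `c`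
minus 4. -/
noncomputable def vec (n c : ℕ) : EuclideanSpace ℝ (Fin n) :=
  WithLp.toLp 2 (fun k : Fin n => ((c / 16 ^ (k : ℕ) % 16 : ℕ) : ℝ) - 4)

theorem dotN_sum (n a b : ℕ) :
    (dotN n a b : ℝ) = ∑ k : Fin n, ((a / 16 ^ (k : ℕ) % 16 : ℕ) : ℝ) *
      ((b / 16 ^ (k : ℕ) % 16 : ℕ) : ℝ) := by
  induction n generalizing a b with
  | zero => simp [dotN_zero]
  | succ n ih =>
    rw [dotN_succ, Fin.sum_univ_succ, Nat.cast_add, ih]
    simp only [Fin.val_zero, pow_zero, Nat.div_one, Nat.cast_mul, Fin.val_succ, Nat.div_div_eq_div_mul]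
    congr 1
    apply Finset.sum_congr rfl
    intro k _
    rw [pow_succ']

theorem sumN_sum (n a : ℕ) :
    (sumN n a : ℝ) = ∑ k : Fin n, ((a / 16 ^ (k : ℕ) % 16 : ℕ) : ℝ) := by
  induction n generalizing a with
  | zero => simp [sumN_zero]
  | succ n ih =>
    rw [sumN_succ, Fin.sum_univ_succ, Nat.cast_add, ih]
    simp only [Fin.val_zero, pow_zero, Nat.div_one, Fin.val_succ, Nat.div_div_eq_div_mul]
    congr 1
    apply Finset.sum_congr rfl
    intro k _
    rw [pow_succ']

theorem inner_vec (n a b : ℕ) :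
    inner ℝ (vec n a) (vec n b) =
      (dotN n a b : ℝ) + 16 * n - 4 * ((sumN n a : ℝ) + sumN n b) := by
  rw [dotN_sum, sumN_sum, sumN_sum]
  simp only [vec, PiLp.inner_apply, RCLike.inner_apply, conj_trivial]
  have : ∀ k : Fin n, (((b / 16 ^ (k : ℕ) % 16 : ℕ) : ℝ) - 4) *
      (((a / 16 ^ (k : ℕ) % 16 : ℕ) : ℝ) - 4) =
      ((a / 16 ^ (k : ℕ) % 16 : ℕ) : ℝ) * ((b / 16 ^ (k : ℕ) % 16 : ℕ) : ℝ) + 16
      - 4 * (((a / 16 ^ (k : ℕ) % 16 : ℕ) : ℝ) + ((b / 16 ^ (k : ℕ) % 16 : ℕ) : ℝ)) := by
    intro k; ring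
  rw [Finset.sum_congr rfl (fun k _ => this k), Finset.sum_sub_distrib, Finset.sum_add_distrib,
    ← Finset.mul_sum, Finset.sum_add_distrib]
  simp
  ring

end Vale.Agent.P052
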